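import Vale.Agent.P319.S2.H510.Defs

/-! P319, block S2: piece 3 (number of classes over two points). -/

namespace Vale.Agent.P319.S2.H235

open Finset Matrix Vale.Agent.P319.SC Vale.Agent.P319.SC.H323 Vale.Agent.P319.SC.H235
open Vale.Agent.P319.S2

set_option linter.all false

theorem image : ImageStmt := by
  intro V ι _ _ _ M j Q X 𝒟 hM hRB v hv v' hv' z₀ hz₀ hX
  classical
  have h1 : ((𝒟.cls (𝒟.c1 z₀)).image fun z => 𝒟.c2 v z).card ≤ Q := by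
    refine (card_le_card ?_).trans (RB.rels hM hRB hv hz₀)
    intro τ hτ
    obtain ⟨z, hz, rfl⟩ := mem_image.1 hτ
    exact (𝒟.mem_rels _ _ _).2 ⟨v, z, rfl, (𝒟.mem_cls _ _).1 hz, rfl⟩
  have hfix : RB X Q M j (Cfg.fix (m := M + j) 𝒟 v) := hRB.2 v hv
  have h2 : ((𝒟.cls (𝒟.c1 z₀)).image fun z => 𝒟.c3 v v' z) ⊆
      ((𝒟.cls (𝒟.c1 z₀)).image fun z => 𝒟.c2 v z).biUnion fun τ =>
        (Cfg.fix (m := M + j) 𝒟 v).rels ((Cfg.fix (m := M + j) 𝒟 v).c1 v') τ := by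
    intro τ hτ
    obtain ⟨z, hz, rfl⟩ := mem_image.1 hτ
    refine mem_biUnion.2 ⟨𝒟.c2 v z, mem_image_of_mem _ hz, ?_⟩
    refine (Cfg.mem_rels _ _ _ _).2 ⟨v', z, rfl, ?_, ?_⟩
    · exact Cfg.fix_c1 (m := M + j) 𝒟 (by omega) v z
    · exact Cfg.fix_c2 (m := M + j) 𝒟 (by omega) v v' z
  refine (card_le_card h2).trans ?_
  refine (card_biUnion_le_card_mul _ _ Q ?_).trans ?_
  · intro τ hτ
    obtain ⟨z, hz, rfl⟩ := mem_image.1 hτ
    have h3 := RB.rels hM hfix hv' (hX z ((𝒟.mem_cls _ _).1 hz))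
    rw [Cfg.fix_c1 (m := M + j) 𝒟 (by omega) v z] at h3
    exact h3
  · rw [pow_two]
    exact Nat.mul_le_mul_right Q h1

end Vale.Agent.P319.S2.H235
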