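import Vale.Agent.P319.S2.H510.Defs

/-! P319, block S2: piece 5 (the start). -/

namespace Vale.Agent.P319.S2.H235

open Finset Matrix Vale.Agent.P319.SC Vale.Agent.P319.SC.H323 Vale.Agent.P319.SC.H235
open Vale.Agent.P319.S2

set_option linter.all false

variable {V ι : Type} [Fintype V] [DecidableEq V] [DecidableEq ι] {m k : ℕ}

/-- the size of the class of `z` over `v`, `v'` is an invariant -/
theorem card_C3 (𝒟 : Cfg V ι k) (hk : 3 ≤ k) {v v' z w w' t : V}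
    (h : 𝒟.c3 v v' z = 𝒟.c3 w w' t) : (C3 𝒟 v v' z).card = (C3 𝒟 w w' t).card := by
  obtain ⟨e, he⟩ := 𝒟.ext2 hk (𝒟.c3_sub hk h).1
  refine Finset.card_bij (fun a _ => e a) ?_ ?_ ?_
  · intro a ha
    rw [C3, mem_filter] at ha ⊢
    exact ⟨mem_univ _, (he a).symm.trans (ha.2.trans h)⟩
  · intro a _ b _ hab
    exact e.injective hab
  · intro b hb
    rw [C3, mem_filter] at hb
    refine ⟨e.symm b, ?_, e.apply_symm_apply b⟩
    rw [C3, mem_filter]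
    refine ⟨mem_univ _, ?_⟩
    rw [he, e.apply_symm_apply, hb.2, h]

/-- the total correlation over a pair of colour `T` -/
theorem s0_le (𝒞 : Cfg V ι (m + 2)) (hm : 3 ≤ m) {D : ℕ} (hD : BigRank 𝒞 D)
    {ρ₀ R T : ι} {v₀ : V} (hv₀ : 𝒞.c1 v₀ = ρ₀)
    (hR : R ∈ 𝒞.rels ρ₀ ρ₀) (hT : T ∈ 𝒞.rels ρ₀ ρ₀)
    (f : V → V → V → ℝ)
    (hfi : ∀ v x y v' x' y', 𝒞.c3 v x y = 𝒞.c3 v' x' y' → f v x y = f v' x' y')
    (hfR : ∀ v x y, f v x y ≠ 0 → 𝒞.c2 v x = R ∧ 𝒞.c2 x y = R ∧ 𝒞.c2 y v = R)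
    (hf2 : ∀ v x y, |f v x y| ≤ 2) (hf0 : ∀ x y, ∑ v ∈ 𝒞.cls ρ₀, f v x y = 0)
    (v v' : V) (hvv : 𝒞.c2 v v' = T) :
    Real.sqrt D * ((𝒞.val v₀ T : ℝ) *
      |∑ x ∈ 𝒞.cls ρ₀, ∑ y ∈ 𝒞.cls ρ₀, f v x y * f v' x y|) ≤ 4 * ((𝒞.cls ρ₀).card : ℝ) ^ 3 := by
  set X := 𝒞.cls ρ₀ with hX
  set n : ℝ := (X.card : ℝ) with hn
  set k : ℝ := (𝒞.val v₀ T : ℝ) with hk
  set E : ℝ := Real.sqrt D with hE
  have hE0 : 0 ≤ E := Real.sqrt_nonneg _
  have hn0 : 0 < n := by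
    rw [hn]
    exact_mod_cast card_pos.2 ⟨v₀, (𝒞.mem_cls _ _).2 hv₀⟩
  have hk0 : 0 ≤ k := Nat.cast_nonneg _
  have hRX : ∀ x y, 𝒞.c2 x y = R → 𝒞.c1 x = ρ₀ ∧ 𝒞.c1 y = ρ₀ := by
    intro x y h
    obtain ⟨x', y', h1, h2, h3⟩ := (𝒞.mem_rels _ _ _).1 hR
    have h4 := 𝒞.c1_of_c2 (by omega) (h.trans h3.symm)
    exact ⟨h4.1.trans h1, h4.2.trans h2⟩
  -- step D
  have stepD : E * |∑ v ∈ X, ∑ v' ∈ X, 𝒞.ind ℝ T v v' * ∑ x ∈ X, ∑ y ∈ X, f v x y * f v' x y| ≤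
      4 * n ^ 4 := by
    have h1 : ∑ v ∈ X, ∑ v' ∈ X, 𝒞.ind ℝ T v v' * ∑ x ∈ X, ∑ y ∈ X, f v x y * f v' x y =
        ∑ x ∈ X, ∑ y ∈ X, ∑ v ∈ X, ∑ v' ∈ X, f v x y * 𝒞.ind ℝ T v v' * f v' x y := by
      rw [sum4_comm]
      refine Finset.sum_congr rfl fun v _ => Finset.sum_congr rfl fun v' _ => ?_
      rw [Finset.mul_sum]
      refine Finset.sum_congr rfl fun x _ => ?_
      rw [Finset.mul_sum]
      refine Finset.sum_congr rfl fun y _ => ?_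
      ring
    rw [h1]
    have h2 : ∀ x ∈ X, ∀ y ∈ X,
        E * |∑ v ∈ X, ∑ v' ∈ X, f v x y * 𝒞.ind ℝ T v v' * f v' x y| ≤ 4 * n ^ 2 := by
      intro x _ y _
      have h3 := quadT 𝒞 (by omega) hD hv₀ hT (fun v => f v x y) (fun v => hf2 v x y)
      rw [← hX, ← hn, ← hk, ← hE, hf0 x y] at h3
      simpa using h3
    calc E * |∑ x ∈ X, ∑ y ∈ X, ∑ v ∈ X, ∑ v' ∈ X, f v x y * 𝒞.ind ℝ T v v' * f v' x y|
        ≤ E * ∑ x ∈ X, ∑ y ∈ X, |∑ v ∈ X, ∑ v' ∈ X, f v x y * 𝒞.ind ℝ T v v' * f v' x y| := by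
          refine mul_le_mul_of_nonneg_left ?_ hE0
          refine (Finset.abs_sum_le_sum_abs _ _).trans ?_
          exact Finset.sum_le_sum fun x _ => Finset.abs_sum_le_sum_abs _ _
      _ = ∑ x ∈ X, ∑ y ∈ X,
            E * |∑ v ∈ X, ∑ v' ∈ X, f v x y * 𝒞.ind ℝ T v v' * f v' x y| := by
          rw [Finset.mul_sum]
          exact Finset.sum_congr rfl fun x _ => Finset.mul_sum _ _ _
      _ ≤ (X.card : ℝ) * (X.card * (4 * n ^ 2)) := sum2_le X X _ h2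
      _ = 4 * n ^ 4 := by rw [← hn]; ring
  -- the sum over `x`, `y` depends on the colour of `(v, v')` only
  have hsinv : ∀ v v' w w', 𝒞.c2 v v' = 𝒞.c2 w w' →
      ∑ x, ∑ y, f v x y * f v' x y = ∑ x, ∑ y, f w x y * f w' x y := by
    intro v v' w w' h
    obtain ⟨e, he⟩ := 𝒞.ext2 (by omega) h
    rw [← Equiv.sum_comp e fun x => ∑ y, f w x y * f w' x y]
    refine Finset.sum_congr rfl fun x _ => ?_
    obtain ⟨e', he'⟩ := 𝒞.ext3 (by omega) (he x)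
    rw [← Equiv.sum_comp e' fun y => f w (e x) y * f w' (e x) y]
    refine Finset.sum_congr rfl fun y _ => ?_
    have h1 := 𝒞.c4_sub (by omega) (he' y)
    rw [hfi _ _ _ _ _ _ h1.2.2.1, hfi _ _ _ _ _ _ h1.2.2.2]
  have hsX : ∀ v v', ∑ x ∈ X, ∑ y ∈ X, f v x y * f v' x y = ∑ x, ∑ y, f v x y * f v' x y := by
    intro v v'
    have h1 : ∀ x, ∑ y ∈ X, f v x y * f v' x y = ∑ y, f v x y * f v' x y := by
      intro x
      refine Finset.sum_subset (Finset.subset_univ _) fun y _ hy => ?_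
      by_cases h0 : f v x y = 0
      · rw [h0, zero_mul]
      · exact absurd ((𝒞.mem_cls _ _).2 (hRX _ _ (hfR v x y h0).2.1).2) hy
    simp only [h1]
    refine Finset.sum_subset (Finset.subset_univ _) fun x _ hx => ?_
    refine Finset.sum_eq_zero fun y _ => ?_
    by_cases h0 : f v x y = 0
    · rw [h0, zero_mul]
    · exact absurd ((𝒞.mem_cls _ _).2 (hRX _ _ (hfR v x y h0).2.1).1) hx
  set s₀ : ℝ := ∑ x ∈ X, ∑ y ∈ X, f v x y * f v' x y with hs₀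
  have hs : ∀ w w', 𝒞.c2 w w' = T → ∑ x ∈ X, ∑ y ∈ X, f w x y * f w' x y = s₀ := by
    intro w w' h
    rw [hs₀, hsX, hsX]
    exact hsinv _ _ _ _ (h.trans hvv.symm)
  have hInd : ∑ v ∈ X, ∑ v' ∈ X, 𝒞.ind ℝ T v v' = n * k := by
    rw [hn, hk, hX]
    exact sum_ind_cls 𝒞 (by omega) hv₀ hT
  have h1 : ∑ v ∈ X, ∑ v' ∈ X, 𝒞.ind ℝ T v v' * ∑ x ∈ X, ∑ y ∈ X, f v x y * f v' x y =
      (n * k) * s₀ := by
    rw [← hInd, Finset.sum_mul]
    refine Finset.sum_congr rfl fun v _ => ?_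
    rw [Finset.sum_mul]
    refine Finset.sum_congr rfl fun v' _ => ?_
    rw [𝒞.ind_apply]
    split_ifs with h
    · rw [hs v v' h]
    · simp
  rw [h1, abs_mul, abs_of_nonneg (mul_nonneg hn0.le hk0)] at stepD
  have h2 : n * (E * (k * |s₀|)) ≤ n * (4 * n ^ 3) := by
    calc n * (E * (k * |s₀|)) = E * (n * k * |s₀|) := by ring
      _ ≤ 4 * n ^ 4 := stepD
      _ = n * (4 * n ^ 3) := by ring
  exact le_of_mul_le_mul_left h2 hn0

/-- the labels have sum zero over the class -/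
theorem lab_sum_cls (𝒞 : Cfg V ι m) (hm : 3 ≤ m) {R ρ₀ : ι} (hR : R ∈ 𝒞.rels ρ₀ ρ₀)
    {lab : ι → ZMod 3} (hl : IsLab 𝒞 R lab) (ε : ZMod 3) (x y : V) :
    ∑ v ∈ 𝒞.cls ρ₀, labf 𝒞 R lab ε v x y = 0 := by
  rw [← lab_sum 𝒞 hm hl ε x y]
  refine Finset.sum_subset (Finset.subset_univ _) fun v _ hv => ?_
  by_contra h
  obtain ⟨x', y', h1, h2, h3⟩ := (𝒞.mem_rels _ _ _).1 hR
  have h4 := 𝒞.c1_of_c2 (by omega) ((labf_ne 𝒞 R lab ε h).1.trans h3.symm)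
  exact hv ((𝒞.mem_cls _ _).2 (h4.1.trans h1))

theorem stage0 : Stage0Stmt := by
  intro V ι _ _ _ m D L₀ M N 𝒞 ρ₀ R T lab κ x ε hG hM hD1 hL₀ hκ hx hN
  classical
  have hm := hG.hm
  have hDb : BigRank 𝒞 D := hG.big (m + 2) (by have := hG.hMm; omega) 𝒞
  have hcls : 𝒞.cls (𝒞.c1 x) = 𝒞.cls ρ₀ := by rw [hx]
  set n : ℝ := ((𝒞.cls ρ₀).card : ℝ) with hn
  have hn0 : 0 < n := by
    rw [hn]
    exact_mod_cast card_pos.2 ⟨x, (𝒞.mem_cls _ _).2 hx⟩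
  have hLinv : Inv3R 𝒞 (fun v v' z => ((C3 𝒞 v v' z).card : ℝ) < κ * n) := by
    intro v v' z w w' t h
    simp only
    rw [card_C3 𝒞 (by omega) h]
  have hLcnt : ∀ v ∈ 𝒞.cls ρ₀, ∀ v' ∈ 𝒞.cls ρ₀,
      ∑ z ∈ 𝒞.cls ρ₀, chi (((C3 𝒞 v v' z).card : ℝ) < κ * n) ≤ (N * κ) * n := by
    intro v hv v' hv'
    rw [sum_chi (𝒞.cls ρ₀) (fun z => ((C3 𝒞 v v' z).card : ℝ) < κ * n)]
    refine (light_count (𝒞.cls ρ₀) (fun z => 𝒞.c3 v v' z) (hN v hv v' hv') (θ := κ * n)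
      (by positivity) _ ?_).trans (le_of_eq (by ring))
    intro z _ hz
    refine le_trans ?_ hz.le
    exact_mod_cast card_le_card fun t ht => by
      rw [mem_filter] at ht
      rw [C3, mem_filter]
      exact ⟨mem_univ _, ht.2⟩
  refine ⟨?_, hLinv, hLinv, ?_, ?_, ?_, ?_⟩
  · intro v v' w w' _
    exact Iff.rfl
  · have : cnt (𝒞.cls (𝒞.c1 x)) (𝒞.cls (𝒞.c1 x)) (fun _ _ => False) = 0 := by
      unfold cnt
      refine Finset.sum_eq_zero fun a _ => Finset.sum_eq_zero fun b _ => ?_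
      exact chi_neg not_false
    rw [this, zero_mul]
  · intro v hv v' hv' _ _
    rw [hcls] at hv hv' ⊢
    exact hLcnt v hv v' hv'
  · intro v hv v' hv' _ _
    rw [hcls] at hv hv' ⊢
    exact hLcnt v hv v' hv'
  · intro v hv v' hv' hvv _ z hz t ht hLz hLt
    rw [hcls] at hv hv' hz ht
    rw [not_lt] at hLz hLt
    set f := labf 𝒞 R lab ε with hf
    have hfR : ∀ v x y, f v x y ≠ 0 → 𝒞.c2 v x = R ∧ 𝒞.c2 x y = R ∧ 𝒞.c2 y v = R :=
      fun v x y h => labf_ne 𝒞 R lab ε h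
    have hs := s0_le 𝒞 (by omega) hDb hx hG.hR hG.hT f
      (fun v x y v' x' y' h => labf_inv 𝒞 (by omega) R lab ε h) hfR
      (fun v x y => labf_abs 𝒞 R lab ε v x y)
      (fun x y => lab_sum_cls 𝒞 (by omega) hG.hR hG.hlab ε x y) v v' hvv
    rw [← hn] at hs
    set E : ℝ := Real.sqrt D with hE
    have hE0 : 0 < E := Real.sqrt_pos.2 (by exact_mod_cast hD1)
    set s₀ : ℝ := ∑ x ∈ 𝒞.cls ρ₀, ∑ y ∈ 𝒞.cls ρ₀, f v x y * f v' x y with hs₀
    -- the bound for the total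
    have hval : n ≤ L₀ * (𝒞.val x T : ℝ) := by
      rw [hn]
      exact_mod_cast hG.vT x hx
    have hL0 : (0 : ℝ) < L₀ := by exact_mod_cast hL₀
    have hs1 : E * |s₀| ≤ 4 * L₀ * n ^ 2 := by
      have h1 : n * (E * |s₀|) ≤ n * (4 * L₀ * n ^ 2) := by
        calc n * (E * |s₀|) ≤ (L₀ * (𝒞.val x T : ℝ)) * (E * |s₀|) :=
              mul_le_mul_of_nonneg_right hval (by positivity)
          _ = L₀ * (E * ((𝒞.val x T : ℝ) * |s₀|)) := by ring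
          _ ≤ L₀ * (4 * n ^ 3) := mul_le_mul_of_nonneg_left hs hL0.le
          _ = n * (4 * L₀ * n ^ 2) := by ring
      exact le_of_mul_le_mul_left h1 hn0
    -- the support is one pair of classes
    have hsub : ∀ z ∈ 𝒞.cls ρ₀, C3 𝒞 v v' z ⊆ 𝒞.cls ρ₀ := by
      intro z hz a ha
      rw [C3, mem_filter] at ha
      have h4 := 𝒞.c3_sub (by omega) ha.2
      exact (𝒞.mem_cls _ _).2 ((𝒞.c1_of_c2 (by omega) h4.2.1).2.trans ((𝒞.mem_cls _ _).1 hz))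
    have hle : |∑ a ∈ C3 𝒞 v v' z, ∑ c ∈ C3 𝒞 v v' t, f v a c * f v' a c| ≤ |s₀| := by
      by_cases hex : ∃ a ∈ C3 𝒞 v v' z, ∃ c ∈ C3 𝒞 v v' t, f v a c * f v' a c ≠ 0
      · obtain ⟨a₀, ha₀, c₀, hc₀, h0⟩ := hex
        have g1 := hfR v a₀ c₀ (left_ne_zero_of_mul h0)
        have g2 := hfR v' a₀ c₀ (right_ne_zero_of_mul h0)
        rw [C3, mem_filter] at ha₀ hc₀
        have e1 : ∑ a ∈ C3 𝒞 v v' z, ∑ c ∈ C3 𝒞 v v' t, f v a c * f v' a c = s₀ := by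
          rw [hs₀]
          have e2 : ∀ a, ∑ c ∈ C3 𝒞 v v' t, f v a c * f v' a c =
              ∑ c ∈ 𝒞.cls ρ₀, f v a c * f v' a c := by
            intro a
            refine Finset.sum_subset (hsub t ht) fun c _ hc => ?_
            by_contra h
            have g3 := hfR v a c (left_ne_zero_of_mul h)
            have g4 := hfR v' a c (right_ne_zero_of_mul h)
            refine hc ?_
            rw [C3, mem_filter]
            exact ⟨mem_univ _, (hG.uL v v' c v v' c₀ hvv hvv g3.2.2 g4.2.2 g1.2.2 g2.2.2).trans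
              hc₀.2⟩
          simp only [e2]
          refine Finset.sum_subset (hsub z hz) fun a _ ha => ?_
          refine Finset.sum_eq_zero fun c _ => ?_
          by_contra h
          have g3 := hfR v a c (left_ne_zero_of_mul h)
          have g4 := hfR v' a c (right_ne_zero_of_mul h)
          refine ha ?_
          rw [C3, mem_filter]
          exact ⟨mem_univ _, (hG.uR v v' a v v' a₀ hvv hvv g3.1 g4.1 g1.1 g2.1).trans ha₀.2⟩
        rw [e1]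
      · push Not at hex
        have : ∑ a ∈ C3 𝒞 v v' z, ∑ c ∈ C3 𝒞 v v' t, f v a c * f v' a c = 0 :=
          Finset.sum_eq_zero fun a ha => Finset.sum_eq_zero fun c hc => hex a ha c hc
        rw [this, abs_zero]
        exact abs_nonneg _
    refine hle.trans ?_
    have h5 : |s₀| ≤ 4 * L₀ * n ^ 2 / E := by
      rw [le_div_iff₀ hE0]
      linarith [hs1]
    refine h5.trans ?_
    have h6 : κ * n * (κ * n) ≤ ((C3 𝒞 v v' z).card : ℝ) * (C3 𝒞 v v' t).card :=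
      mul_le_mul hLz hLt (by positivity) (by positivity)
    calc 4 * L₀ * n ^ 2 / E = 4 * L₀ / (E * κ ^ 2) * (κ * n * (κ * n)) := by
          field_simp
      _ ≤ _ := mul_le_mul_of_nonneg_left h6 (by positivity)

end Vale.Agent.P319.S2.H235
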