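import Vale.Agent.P319.S2.H920.Spec

/-! P319, exponent `1/2`: STEP, one more block shrinks the class of `y`. -/

namespace Vale.Agent.P319.S2.H235S

open Finset Vale.Agent.P319.SC Vale.Agent.P319.SC.H323 Vale.Agent.P319.S2.H920

set_option linter.all false

/-- sequential choice -/
theorem pick {α : Type} [DecidableEq α] (Z bad : Finset α) (hZ : 0 < Z.card)
    (hbad : 2 * (Z.filter fun v => v ∈ bad).card ≤ Z.card) (F : α → ℕ) (f : ℕ)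
    (hF : ∑ v ∈ Z, F v ≤ Z.card * f) : ∃ v ∈ Z, v ∉ bad ∧ F v ≤ 2 * f := by
  by_contra hcon
  push Not at hcon
  have h1 : (Z.filter fun v => v ∉ bad).card * (2 * f + 1) ≤ ∑ v ∈ Z, F v := by
    calc (Z.filter fun v => v ∉ bad).card * (2 * f + 1)
        ≤ ∑ v ∈ Z.filter (fun v => v ∉ bad), F v := by
          rw [← smul_eq_mul]
          refine Finset.card_nsmul_le_sum _ _ _ fun v hv => ?_
          rw [mem_filter] at hv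
          exact hcon v hv.1 hv.2
      _ ≤ ∑ v ∈ Z, F v := Finset.sum_le_sum_of_subset (filter_subset _ _)
  have h2 : (Z.filter fun v => v ∈ bad).card + (Z.filter fun v => v ∉ bad).card = Z.card :=
    Finset.card_filter_add_card_filter_not (s := Z) (fun v => v ∈ bad)
  set a := (Z.filter fun v => v ∉ bad).card with ha
  have h3 : Z.card ≤ 2 * a := by omega
  have h4 : a * (2 * f + 1) ≤ Z.card * f := h1.trans hF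
  have h5 : Z.card * f ≤ 2 * a * f := Nat.mul_le_mul_right _ h3
  have h6 : a * (2 * f + 1) = 2 * a * f + a := by ring
  omega

variable {V ι : Type} [Fintype V] [DecidableEq V] [DecidableEq ι]

theorem fix3_c1 {m : ℕ} (𝒞 : Cfg V ι (m + 3)) (hm : 1 ≤ m) (v v' v'' x : V) :
    (((𝒞.fix v).fix v').fix v'').c1 x = 𝒞.c4 v v' v'' x := by
  rw [Cfg.fix_c1 (m := m) ((𝒞.fix v).fix v') hm v'' x,
    Cfg.fix_c2 (m := m + 1) (𝒞.fix v) (by omega) v' v'' x]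
  exact Cfg.fix_c3 (m := m + 2) 𝒞 (by omega) v v' v'' x

theorem fix2_c1 {m : ℕ} (𝒞 : Cfg V ι (m + 2)) (hm : 1 ≤ m) (v v' x : V) :
    ((𝒞.fix v).fix v').c1 x = 𝒞.c3 v v' x := by
  rw [Cfg.fix_c1 (m := m) (𝒞.fix v) hm v' x]
  exact Cfg.fix_c2 (m := m + 1) 𝒞 (by omega) v v' x

theorem Cl.fix {m : ℕ} {X : Finset V} {𝒟 : Cfg V ι (m + 1)} (h : Cl X 𝒟) (hm : 1 ≤ m) (x : V) :
    Cl X (𝒟.fix x) := by
  intro a b hab ha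
  rw [𝒟.fix_c1 hm, 𝒟.fix_c1 hm] at hab
  exact h a b (𝒟.c1_of_c2 (by omega) hab).2 ha

theorem two_le {m : ℕ} (𝒟 : Cfg V ι m) (y : V) (h : (𝒟.cls (𝒟.c1 y)).card ≠ 1) :
    2 ≤ (𝒟.cls (𝒟.c1 y)).card := by
  have := 𝒟.cls_pos y
  omega

/-- few bad points -/
theorem few_bad (hThin : ThinStmt) (hLow : LowStmt) {L B l : ℕ} {X Z : Finset V}
    (ℱ : Cfg V ι (l + 1)) {y : V}
    (hB : Bd V ι L B) (hl : L ≤ l) (h4 : 4 ≤ l) (hX : Cl X ℱ) (hy : y ∈ X)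
    (hXB : 2 * X.card < B * B) (h2 : 2 ≤ (ℱ.cls (ℱ.c1 y)).card) (hZX : Z ⊆ X) (hZB : B ≤ Z.card) :
    2 * (Z.filter fun v => v ∈ univ.filter fun v =>
      ((ℱ.fix v).cls ((ℱ.fix v).c1 y)).card = 1).card ≤ Z.card := by
  have h := hThin V ι L B l X ℱ y hB hl h4 hX hy (by omega) h2
  have hYB : B ≤ (ℱ.cls (ℱ.c1 y)).card := hLow V ι L B (l + 1) hB (by omega) ℱ y h2
  set bad := X.filter fun v => ((ℱ.fix v).cls ((ℱ.fix v).c1 y)).card = 1 with hbad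
  have h3 : (Z.filter fun v => v ∈ univ.filter fun v =>
      ((ℱ.fix v).cls ((ℱ.fix v).c1 y)).card = 1).card ≤ bad.card := by
    refine card_le_card fun v hv => ?_
    rw [mem_filter, mem_filter] at hv
    exact mem_filter.2 ⟨hZX hv.1, hv.2.2⟩
  have h5 : bad.card * B ≤ X.card := (Nat.mul_le_mul_left _ hYB).trans h
  have h6 : 2 * bad.card * B < B * B := by
    calc 2 * bad.card * B = 2 * (bad.card * B) := by ring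
      _ ≤ 2 * X.card := Nat.mul_le_mul_left _ h5
      _ < B * B := hXB
  have h7 : 2 * bad.card < B := lt_of_mul_lt_mul_right h6 (Nat.zero_le _)
  omega

/-- **A4 STEP** -/
theorem step (hLow : LowStmt) (hThin : ThinStmt) (hMeet : MeetStmt) : StepStmt := by
  intro V ι _ _ _ L B G k l X 𝒟 u₁ u₂ u₃ y ℰ hB hG hXB hLk hk hLl hl hy hu₁ hu₂ hu₃ hX𝒟 hheavy
    hblock href hXℰ h2
  obtain ⟨k, rfl⟩ : ∃ k', k = k' + 3 := ⟨k - 3, by omega⟩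
  have hLk' : L ≤ k := by omega
  -- the sets of choices
  set Z₁ : Finset V := univ.filter fun v => 𝒟.c2 y v = 𝒟.c2 y u₁ with hZ₁
  set Z₂ : V → Finset V := fun v₁ => univ.filter fun v => 𝒟.c3 y v₁ v = 𝒟.c3 y u₁ u₂ with hZ₂
  set Z₃ : V → V → Finset V :=
    fun v₁ v₂ => univ.filter fun v => 𝒟.c4 y v₁ v₂ v = 𝒟.c4 y u₁ u₂ u₃ with hZ₃
  have m₁ : ∀ v, v ∈ Z₁ ↔ 𝒟.c2 y v = 𝒟.c2 y u₁ := fun v => by simp [hZ₁]
  have m₂ : ∀ v₁ v, v ∈ Z₂ v₁ ↔ 𝒟.c3 y v₁ v = 𝒟.c3 y u₁ u₂ := fun v₁ v => by simp [hZ₂]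
  have m₃ : ∀ v₁ v₂ v, v ∈ Z₃ v₁ v₂ ↔ 𝒟.c4 y v₁ v₂ v = 𝒟.c4 y u₁ u₂ u₃ := fun v₁ v₂ v => by
    simp [hZ₃]
  set n₁ := Z₁.card with hn₁
  set n₂ := (Z₂ u₁).card with hn₂
  set n₃ := (Z₃ u₁ u₂).card with hn₃
  have c₂ : ∀ v₁ ∈ Z₁, (Z₂ v₁).card = n₂ := by
    intro v₁ hv₁
    obtain ⟨e, he⟩ := 𝒟.ext2 (by omega) ((m₁ v₁).1 hv₁)
    refine Finset.card_bij (fun z _ => e z) ?_ (fun a _ b _ h => e.injective h) ?_
    · intro z hz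
      rw [m₂, ← he z]; exact (m₂ _ _).1 hz
    · intro z hz
      refine ⟨e.symm z, ?_, e.apply_symm_apply z⟩
      rw [m₂, he, e.apply_symm_apply]; exact (m₂ _ _).1 hz
  have c₃ : ∀ v₁ v₂, v₂ ∈ Z₂ v₁ → (Z₃ v₁ v₂).card = n₃ := by
    intro v₁ v₂ hv₂
    obtain ⟨e, he⟩ := 𝒟.ext3 (by omega) ((m₂ v₁ v₂).1 hv₂)
    refine Finset.card_bij (fun z _ => e z) ?_ (fun a _ b _ h => e.injective h) ?_
    · intro z hz
      rw [m₃, ← he z]; exact (m₃ _ _ _).1 hz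
    · intro z hz
      refine ⟨e.symm z, ?_, e.apply_symm_apply z⟩
      rw [m₃, he, e.apply_symm_apply]; exact (m₃ _ _ _).1 hz
  -- they have at least `B` points
  have b₁ : B ≤ n₁ := by
    have h := hLow V ι L B (k + 2) hB (by omega) (𝒟.fix y) u₁
    have e : (𝒟.fix y).cls ((𝒟.fix y).c1 u₁) = Z₁ := by
      ext z
      rw [Cfg.mem_cls, m₁, 𝒟.fix_c1 (by omega), 𝒟.fix_c1 (by omega)]
    rw [e] at h
    exact h hblock.h1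
  have b₂ : B ≤ n₂ := by
    have h := hLow V ι L B (k + 1) hB (by omega) ((𝒟.fix y).fix u₁) u₂
    have e : ((𝒟.fix y).fix u₁).cls (((𝒟.fix y).fix u₁).c1 u₂) = Z₂ u₁ := by
      ext z
      rw [Cfg.mem_cls, m₂, fix2_c1 _ (by omega), fix2_c1 _ (by omega)]
    rw [e] at h
    exact h hblock.h2
  have b₃ : B ≤ n₃ := by
    have h := hLow V ι L B k hB hLk' (((𝒟.fix y).fix u₁).fix u₂) u₃
    have e : (((𝒟.fix y).fix u₁).fix u₂).cls ((((𝒟.fix y).fix u₁).fix u₂).c1 u₃) = Z₃ u₁ u₂ := by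
      ext z
      rw [Cfg.mem_cls, m₃, fix3_c1 _ (by omega), fix3_c1 _ (by omega)]
    rw [e] at h
    exact h hblock.h3
  -- inside `X`
  have x₁ : Z₁ ⊆ X := by
    intro v hv
    exact hX𝒟 u₁ v (𝒟.c1_of_c2 (by omega) ((m₁ v).1 hv)).2.symm hu₁
  have x₂ : ∀ v₁, Z₂ v₁ ⊆ X := by
    intro v₁ v hv
    have := (𝒟.c3_sub (by omega) ((m₂ v₁ v).1 hv)).2.1
    exact hX𝒟 u₂ v (𝒟.c1_of_c2 (by omega) this).2.symm hu₂
  have x₃ : ∀ v₁ v₂, Z₃ v₁ v₂ ⊆ X := by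
    intro v₁ v₂ v hv
    have h1 := (𝒟.c4_sub (by omega) ((m₃ v₁ v₂ v).1 hv)).2.1
    have := (𝒟.c3_sub (by omega) h1).2.1
    exact hX𝒟 u₃ v (𝒟.c1_of_c2 (by omega) this).2.symm hu₃
  have hB0 : 0 < B := by
    rcases Nat.eq_zero_or_pos B with h | h
    · subst h; omega
    · exact h
  -- the counting function
  set Y : Finset V := ℰ.cls (ℰ.c1 y) with hY
  have hyY : y ∈ Y := (ℰ.mem_cls _ _).2 rfl
  set N : V → V → V → Finset V := fun v₁ v₂ v₃ =>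
    (Y.erase y).filter fun z => 𝒟.c4 z v₁ v₂ v₃ = 𝒟.c4 y u₁ u₂ u₃ with hN
  set F : V → V → V → ℕ := fun v₁ v₂ v₃ => 2 ^ (G - 1) * (N v₁ v₂ v₃).card with hF
  have hYc : (Y.erase y).card = Y.card - 1 := card_erase_of_mem hyY
  have hY𝒟 : ∀ z ∈ Y, 𝒟.c1 z = 𝒟.c1 y := by
    intro z hz
    have h1 : ℰ.c1 z = ℰ.c1 y := (ℰ.mem_cls _ _).1 hz
    exact href 1 (by omega) _ _ h1
  set S : Finset (V × V × V) := univ.filter fun v =>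
    𝒟.c4 y v.1 v.2.1 v.2.2 = 𝒟.c4 y u₁ u₂ u₃ with hS
  have tri : ∀ Φ : V → V → V → ℕ,
      ∑ v₁ ∈ Z₁, ∑ v₂ ∈ Z₂ v₁, ∑ v₃ ∈ Z₃ v₁ v₂, Φ v₁ v₂ v₃ = ∑ v ∈ S, Φ v.1 v.2.1 v.2.2 := by
    intro Φ
    have h1 : ∀ v₁ ∈ Z₁, ∑ v₂ ∈ Z₂ v₁, ∑ v₃ ∈ Z₃ v₁ v₂, Φ v₁ v₂ v₃ =
        ∑ v₂, ∑ v₃, if 𝒟.c4 y v₁ v₂ v₃ = 𝒟.c4 y u₁ u₂ u₃ then Φ v₁ v₂ v₃ else 0 := by
      intro v₁ _
      have h2 : ∀ v₂, ∑ v₃ ∈ Z₃ v₁ v₂, Φ v₁ v₂ v₃ =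
          ∑ v₃, if 𝒟.c4 y v₁ v₂ v₃ = 𝒟.c4 y u₁ u₂ u₃ then Φ v₁ v₂ v₃ else 0 := by
        intro v₂
        rw [hZ₃, Finset.sum_filter]
      simp only [h2]
      refine Finset.sum_subset (subset_univ _) fun v₂ _ hv₂ => ?_
      refine Finset.sum_eq_zero fun v₃ _ => if_neg fun h => hv₂ ?_
      rw [m₂]
      exact (𝒟.c4_sub (by omega) h).1
    rw [Finset.sum_congr rfl h1]
    have h3 : ∑ v₁ ∈ Z₁, ∑ v₂, ∑ v₃,
        (if 𝒟.c4 y v₁ v₂ v₃ = 𝒟.c4 y u₁ u₂ u₃ then Φ v₁ v₂ v₃ else 0) =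
        ∑ v₁, ∑ v₂, ∑ v₃,
          (if 𝒟.c4 y v₁ v₂ v₃ = 𝒟.c4 y u₁ u₂ u₃ then Φ v₁ v₂ v₃ else 0) := by
      refine Finset.sum_subset (subset_univ _) fun v₁ _ hv₁ => ?_
      refine Finset.sum_eq_zero fun v₂ _ => Finset.sum_eq_zero fun v₃ _ => if_neg fun h => hv₁ ?_
      rw [m₁]
      exact (𝒟.c3_sub (by omega) (𝒟.c4_sub (by omega) h).1).1
    rw [h3, hS, Finset.sum_filter, Fintype.sum_prod_type]
    refine Finset.sum_congr rfl fun v₁ _ => ?_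
    rw [Fintype.sum_prod_type]
  have hScard : S.card = n₁ * (n₂ * n₃) := by
    have h1 := tri fun _ _ _ => 1
    rw [Finset.sum_const, smul_eq_mul, mul_one] at h1
    rw [← h1]
    have h2 : ∀ v₁ ∈ Z₁, ∑ v₂ ∈ Z₂ v₁, ∑ v₃ ∈ Z₃ v₁ v₂, 1 = n₂ * n₃ := by
      intro v₁ hv₁
      have h3 : ∀ v₂ ∈ Z₂ v₁, ∑ v₃ ∈ Z₃ v₁ v₂, 1 = n₃ := by
        intro v₂ hv₂
        rw [Finset.sum_const, smul_eq_mul, mul_one, c₃ v₁ v₂ hv₂]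
      rw [Finset.sum_congr rfl h3, Finset.sum_const, smul_eq_mul, c₂ v₁ hv₁]
    rw [Finset.sum_congr rfl h2, Finset.sum_const, smul_eq_mul]
  -- the mean
  have hmeet : ∀ z ∈ Y.erase y, 2 ^ (G - 1) *
      (S.filter fun v => 𝒟.c4 z v.1 v.2.1 v.2.2 = 𝒟.c4 y u₁ u₂ u₃).card ≤ S.card := by
    intro z hz
    have hzy : z ≠ y := ne_of_mem_erase hz
    have hz1 : 𝒟.c1 z = 𝒟.c1 y := hY𝒟 z (mem_of_mem_erase hz)
    have h1 := hMeet V ι (k + 3) 𝒟 y z u₁ u₂ u₃ hk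
    have h3 := hheavy z hz1 hzy
    have h4 := hblock.hK
    have e : (univ.filter fun v : V × V × V => 𝒟.c4 y v.1 v.2.1 v.2.2 = 𝒟.c4 y u₁ u₂ u₃ ∧
        𝒟.c4 z v.1 v.2.1 v.2.2 = 𝒟.c4 y u₁ u₂ u₃) =
        S.filter fun v => 𝒟.c4 z v.1 v.2.1 v.2.2 = 𝒟.c4 y u₁ u₂ u₃ := by
      rw [hS, Finset.filter_filter]
    rw [e] at h1
    set a := (S.filter fun v => 𝒟.c4 z v.1 v.2.1 v.2.2 = 𝒟.c4 y u₁ u₂ u₃).card with ha
    set w := 𝒟.val y (𝒟.c2 y z) with hw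
    set K := (univ.filter fun z => 𝒟.c4 z u₁ u₂ u₃ = 𝒟.c4 y u₁ u₂ u₃).card with hK
    set c := (𝒟.cls (𝒟.c1 y)).card with hc
    have hw0 : 0 < w := 𝒟.val_pos y z
    have hp : 0 < 2 ^ G := by positivity
    obtain ⟨g, rfl⟩ : ∃ g, G = g + 1 := ⟨G - 1, by omega⟩
    have e1 : 2 ^ (2 * (g + 1)) = 2 * 2 ^ (g + 1) * 2 ^ g := by
      rw [show 2 * (g + 1) = 1 + (g + 1) + g by ring, pow_add, pow_add, pow_one]
    rw [show g + 1 - 1 = g by omega]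
    -- a w ≤ S K, K 2^(2G) ≤ 2 c < 2 2^G w
    have h5 : (2 ^ g * a) * (2 * 2 ^ (g + 1) * w) ≤ S.card * (2 * 2 ^ (g + 1) * w) := by
      calc (2 ^ g * a) * (2 * 2 ^ (g + 1) * w) = (a * w) * 2 ^ (2 * (g + 1)) := by
            rw [e1]; ring
        _ ≤ (S.card * K) * 2 ^ (2 * (g + 1)) := Nat.mul_le_mul_right _ h1
        _ = S.card * (K * 2 ^ (2 * (g + 1))) := by ring
        _ ≤ S.card * (2 * c) := Nat.mul_le_mul_left _ h4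
        _ ≤ S.card * (2 * (2 ^ (g + 1) * w)) :=
            Nat.mul_le_mul_left _ (Nat.mul_le_mul_left _ h3.le)
        _ = S.card * (2 * 2 ^ (g + 1) * w) := by ring
    exact Nat.le_of_mul_le_mul_right h5 (by positivity)
  have hsum : ∑ v₁ ∈ Z₁, ∑ v₂ ∈ Z₂ v₁, ∑ v₃ ∈ Z₃ v₁ v₂, F v₁ v₂ v₃ ≤
      n₁ * (n₂ * (n₃ * (Y.card - 1))) := by
    rw [tri]
    have h1 : ∑ v ∈ S, F v.1 v.2.1 v.2.2 = ∑ z ∈ Y.erase y, 2 ^ (G - 1) *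
        (S.filter fun v => 𝒟.c4 z v.1 v.2.1 v.2.2 = 𝒟.c4 y u₁ u₂ u₃).card := by
      simp only [hF, hN, Finset.card_filter, Finset.mul_sum]
      exact Finset.sum_comm
    rw [h1]
    calc ∑ z ∈ Y.erase y, 2 ^ (G - 1) *
          (S.filter fun v => 𝒟.c4 z v.1 v.2.1 v.2.2 = 𝒟.c4 y u₁ u₂ u₃).card
        ≤ ∑ z ∈ Y.erase y, S.card := Finset.sum_le_sum hmeet
      _ = (Y.card - 1) * (n₁ * (n₂ * n₃)) := by
          rw [Finset.sum_const, smul_eq_mul, hYc, hScard]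
      _ = n₁ * (n₂ * (n₃ * (Y.card - 1))) := by ring
  -- first point
  obtain ⟨v₁, hv₁, hg₁, hF₁⟩ := pick Z₁ (univ.filter fun v =>
      ((ℰ.fix v).cls ((ℰ.fix v).c1 y)).card = 1) (by omega)
    (few_bad hThin hLow (l := l + 2) ℰ hB (by omega) (by omega) hXℰ hy hXB h2 x₁ b₁)
    (fun v₁ => ∑ v₂ ∈ Z₂ v₁, ∑ v₃ ∈ Z₃ v₁ v₂, F v₁ v₂ v₃) _ hsum
  have h2₁ : 2 ≤ ((ℰ.fix v₁).cls ((ℰ.fix v₁).c1 y)).card :=
    two_le _ _ fun h => hg₁ (by simpa using h)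
  have hX₁ : Cl X (ℰ.fix v₁) := Cl.fix hXℰ (by omega) v₁
  -- second point
  obtain ⟨v₂, hv₂, hg₂, hF₂⟩ := pick (Z₂ v₁) (univ.filter fun v =>
      (((ℰ.fix v₁).fix v).cls (((ℰ.fix v₁).fix v).c1 y)).card = 1) (by rw [c₂ v₁ hv₁]; omega)
    (few_bad hThin hLow (l := l + 1) (ℰ.fix v₁) hB (by omega) (by omega) hX₁ hy hXB h2₁ (x₂ v₁)
      (by rw [c₂ v₁ hv₁]; exact b₂))
    (fun v₂ => ∑ v₃ ∈ Z₃ v₁ v₂, F v₁ v₂ v₃) (2 * (n₃ * (Y.card - 1))) (by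
      refine hF₁.trans (le_of_eq ?_)
      rw [c₂ v₁ hv₁]; ring)
  have h2₂ : 2 ≤ (((ℰ.fix v₁).fix v₂).cls (((ℰ.fix v₁).fix v₂).c1 y)).card :=
    two_le _ _ fun h => hg₂ (by simpa using h)
  have hX₂ : Cl X ((ℰ.fix v₁).fix v₂) := Cl.fix hX₁ (by omega) v₂
  -- third point
  obtain ⟨v₃, hv₃, hg₃, hF₃⟩ := pick (Z₃ v₁ v₂) (univ.filter fun v =>
      ((((ℰ.fix v₁).fix v₂).fix v).cls ((((ℰ.fix v₁).fix v₂).fix v).c1 y)).card = 1)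
      (by rw [c₃ v₁ v₂ hv₂]; omega)
    (few_bad hThin hLow (l := l) ((ℰ.fix v₁).fix v₂) hB (by omega) (by omega) hX₂ hy hXB h2₂
      (x₃ v₁ v₂) (by rw [c₃ v₁ v₂ hv₂]; exact b₃))
    (fun v₃ => F v₁ v₂ v₃) (4 * (Y.card - 1)) (by
      refine hF₂.trans (le_of_eq ?_)
      rw [c₃ v₁ v₂ hv₂]; ring)
  have h2₃ : 2 ≤ ((((ℰ.fix v₁).fix v₂).fix v₃).cls ((((ℰ.fix v₁).fix v₂).fix v₃).c1 y)).card :=
    two_le _ _ fun h => hg₃ (by simpa using h)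
  refine ⟨v₁, x₁ hv₁, v₂, x₂ v₁ hv₂, v₃, x₃ v₁ v₂ hv₃, h2₃, ?_⟩
  set Y' := (((ℰ.fix v₁).fix v₂).fix v₃).cls ((((ℰ.fix v₁).fix v₂).fix v₃).c1 y) with hY'
  have hsub : Y'.erase y ⊆ N v₁ v₂ v₃ := by
    intro z hz
    have hzy : z ≠ y := ne_of_mem_erase hz
    have hz1 := (Cfg.mem_cls _ _ _).1 (mem_of_mem_erase hz)
    rw [fix3_c1 ℰ (by omega), fix3_c1 ℰ (by omega)] at hz1
    have hz2 := ℰ.c4_rot (by omega) (ℰ.c4_rot (by omega) (ℰ.c4_rot (by omega) hz1))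
    have hz3 : 𝒟.c4 z v₁ v₂ v₃ = 𝒟.c4 y v₁ v₂ v₃ := href 4 le_rfl _ _ hz2
    have hz4 : ℰ.c1 z = ℰ.c1 y := by
      have a1 := (ℰ.c4_sub (by omega) hz2).1
      have a2 := (ℰ.c3_sub (by omega) a1).1
      exact (ℰ.c1_of_c2 (by omega) a2).1
    rw [hN]
    refine mem_filter.2 ⟨mem_erase.2 ⟨hzy, (ℰ.mem_cls _ _).2 hz4⟩, ?_⟩
    exact hz3.trans ((m₃ _ _ _).1 hv₃)
  have hyY' : y ∈ Y' := (Cfg.mem_cls _ _ _).2 rfl
  have h6 : Y'.card - 1 ≤ (N v₁ v₂ v₃).card := by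
    rw [← card_erase_of_mem hyY']
    exact card_le_card hsub
  have h7 : 2 ^ (G - 1) * (Y'.card - 1) ≤ 8 * (Y.card - 1) := by
    refine (Nat.mul_le_mul_left _ h6).trans ?_
    have : F v₁ v₂ v₃ ≤ 2 * (4 * (Y.card - 1)) := hF₃
    simp only [hF] at this
    omega
  obtain ⟨g, rfl⟩ : ∃ g, G = g + 5 := ⟨G - 5, by omega⟩
  rw [show g + 5 - 1 = 4 + g by omega, pow_add] at h7
  rw [show g + 5 - 5 = g by omega]
  have h8 : Y'.card ≤ 2 * (Y'.card - 1) := by omega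
  have h9 : Y'.card * 2 ^ g ≤ 2 * (Y'.card - 1) * 2 ^ g := Nat.mul_le_mul_right _ h8
  have h10 : 8 * (2 * (Y'.card - 1) * 2 ^ g) = 2 ^ 4 * 2 ^ g * (Y'.card - 1) := by ring
  omega

end Vale.Agent.P319.S2.H235S
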